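import Vale.Agent.P076.H645.Geo2

/-!
# P076 / BG / GEO (helper645) : `stGEO : StGEO`
-/

set_option autoImplicit false

namespace Vale.Agent.P076.H645

open Finset Vale.Agent.P076.H732

/-- `pop` with arbitrary decidability instances -/
theorem pop_dec {α β γ : Type} [dβ : DecidableEq β] [dγ : DecidableEq γ] [Nonempty β] (S : Finset α) (N : ℕ) (x y z : α → ℤ)
    (f : ℕ → α → β) (xc : ℕ → ℤ → ℤ) (q : ℕ → α → γ)
    (κ lam M : ℝ) (A₁ A₂ A₃ A₄ : ℕ → ℝ) (hκ : 1 ≤ κ) (hlam : 0 < lam) (hM : 0 ≤ M)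
    (h1 : ∀ a b c : ℤ, ((S.filter fun s => x s = a ∧ y s = b ∧ z s = c).card : ℝ) ≤ κ)
    (h2 : ((S.image fun s => (x s, y s)).card : ℝ) ≤ M) (h3 : ((S.image fun s => (x s, z s)).card : ℝ) ≤ M)
    (h4 : ∀ j ≤ N, ((S.image (f j)).card : ℝ) ≤ A₁ j)
    (h5 : ∀ j ≤ N, ∀ c, ((S.filter fun s => f j s = c).card : ℝ) ≤ A₂ j)
    (h6 : ∀ j ≤ N, ((S.image (q j)).card : ℝ) ≤ A₃ j)
    (h7 : ∀ j ≤ N, ∀ c, (((S.filter fun s => f j s = c).image (q N)).card : ℝ) ≤ A₄ j)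
    (h8 : ∀ j ≤ N, ∀ c, (((S.filter fun s => f j s = c).image fun s => xc j (x s)).card : ℝ) ≤ κ)
    (h9 : ∀ j ≤ N, ∀ a r, (((S.filter fun s => xc j (x s) = a ∧ q j s = r).image (f j)).card : ℝ) ≤ κ)
    (h10 : ∀ a r, ((S.filter fun s => x s = a ∧ q N s = r).card : ℝ) ≤ κ) :
    ((S.filter fun s => ((S.filter fun s' => x s' = x s).card : ℝ) < lam).card : ℝ) ≤ Real.sqrt (lam * κ) * M ∧
    (∀ j ≤ N, ∀ c, (((S.image x).filter fun a => lam ≤ ((S.filter fun s => x s = a).card : ℝ) ∧ xc j a = c).card : ℝ) * lam ≤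
      κ * A₃ j * A₂ j) ∧
    (∀ j ≤ N, ((((S.image x).filter fun a => lam ≤ ((S.filter fun s => x s = a).card : ℝ)).image (xc j)).card : ℝ) * lam ≤
      κ ^ 2 * A₄ j * A₁ j) := by
  obtain rfl : dβ = fun a b => Classical.propDecidable (a = b) := Subsingleton.elim _ _
  obtain rfl : dγ = fun a b => Classical.propDecidable (a = b) := Subsingleton.elim _ _
  exact pop S N x y z f xc q κ lam M A₁ A₂ A₃ A₄ hκ hlam hM h1 h2 h3 h4 h5 h6 h7 h8 h9 h10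

section
variable {ι : Type} {kp E d L C₁ : ℝ} {N m : ℕ} {P S : Finset Z3} {Th : Finset ι} {v : ι → Fin 2 → ℝ} {μ : Z3 → ι → ℝ}

theorem pow_L (hL : L = (2:ℝ) ^ (C₁ * E * N * m)) (k : ℕ) : L ^ k = (2:ℝ) ^ ((k : ℝ) * (C₁ * E * N * m)) := by
  rw [hL, ← Real.rpow_natCast, ← Real.rpow_mul (by norm_num)]
  congr 1
  ring

/-- two coordinates which vanish along the direction `θ` -/
theorem pairs_cfg (hL : 2 ≤ L) (hΛ : (2:ℝ) ^ (E * N * m) ≤ L) (hC : Cfg kp E d N m P Th v μ) (hSP : S ⊆ P) {θ : ι} (hθ : θ ∈ Th)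
    (hμ : ∀ p ∈ S, μ p θ ≠ 0) (x y : Z3 → ℤ)
    (hx : ∀ p p' : Z3, prj (v θ) 0 p = prj (v θ) 0 p' → |(x p : ℝ) - x p'| ≤ 4 * L * 1 + 1)
    (hy : ∀ p p' : Z3, prj (v θ) 0 p = prj (v θ) 0 p' → |(y p : ℝ) - y p'| ≤ 4 * L * 1 + 1) :
    ((S.image fun p => (x p, y p)).card : ℝ) ≤ L ^ 11 * (2:ℝ) ^ (2 * kp * N * m) := by
  have h1 := pairs_le (S := S) hL x y (v θ) hx hy
  have h2 := cnt_prj hC hSP hθ hμ (le_refl N)
  rw [Nat.sub_self, Nat.zero_mul] at h2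
  have h3 : (2:ℝ) ^ ((2 * kp * N + E * N) * m) = (2:ℝ) ^ (2 * kp * N * m) * (2:ℝ) ^ (E * N * m) := by
    rw [← Real.rpow_add (by norm_num)]
    congr 1
    ring
  have h4 : (0:ℝ) < (2:ℝ) ^ (2 * kp * N * m) := Real.rpow_pos_of_pos (by norm_num) _
  calc ((S.image fun p => (x p, y p)).card : ℝ) ≤ ((S.image (prj (v θ) 0)).card : ℝ) * L ^ 10 := h1
    _ ≤ ((2:ℝ) ^ (2 * kp * N * m) * (2:ℝ) ^ (E * N * m)) * L ^ 10 := by
      refine mul_le_mul_of_nonneg_right ?_ (by positivity)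
      rw [← h3]
      exact h2
    _ ≤ ((2:ℝ) ^ (2 * kp * N * m) * L) * L ^ 10 := by
      refine mul_le_mul_of_nonneg_right (mul_le_mul_of_nonneg_left hΛ h4.le) (by positivity)
    _ = _ := by ring

open Classical in
/-- the conclusion of `pop` in the frame `a, b, c` -/
theorem pop_frame (hL : 2 ≤ L) (hΛ : (2:ℝ) ^ (E * N * m) ≤ L) (hC : Cfg kp E d N m P Th v μ) (hSP : S ⊆ P)
    {a b c : ι} (ha : a ∈ Th) (hb : b ∈ Th) (hc : c ∈ Th)
    (hμ : ∀ p ∈ S, μ p a ≠ 0 ∧ μ p b ≠ 0 ∧ μ p c ≠ 0) (hv : ∀ θ ∈ Th, ∀ i, |v θ i| ≤ L)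
    (ht : L⁻¹ ≤ |tri (v a) (v b) (v c)|) {lam : ℝ} (hlam : 0 < lam) :
    ((S.filter fun p => ((S.filter fun p' => xf (v b) (v c) p' = xf (v b) (v c) p).card : ℝ) < lam).card : ℝ) ≤
      Real.sqrt (lam * L ^ 21) * (L ^ 11 * (2:ℝ) ^ (2 * kp * N * m)) ∧
    (∀ j ≤ N, ∀ r : ℤ, (((popu (xf (v b) (v c)) S lam).filter fun x => x / 2 ^ ((N - j) * m) = r).card : ℝ) * lam ≤
      L ^ 21 * (2:ℝ) ^ ((2 * kp * j + E * N) * m) * (2:ℝ) ^ ((3 * kp * ((N : ℝ) - j) + E * N) * m)) ∧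
    (∀ j ≤ N, (((popu (xf (v b) (v c)) S lam).image fun x => x / 2 ^ ((N - j) * m)).card : ℝ) * lam ≤
      (L ^ 21) ^ 2 * (2:ℝ) ^ ((2 * kp * ((N : ℝ) - j) + E * N) * m) * (2:ℝ) ^ ((3 * kp * j + E * N) * m)) := by
  have hL1 : 1 ≤ L := by linarith
  have h := pop_dec S N (xf (v b) (v c)) (xf (v a) (v c)) (xf (v a) (v b)) (fun j => dv ((N - j) * m))
    (fun j x => x / 2 ^ ((N - j) * m)) (fun j => prj (v a) ((N - j) * m)) (L ^ 21) lam
    (L ^ 11 * (2:ℝ) ^ (2 * kp * N * m)) (fun j => (2:ℝ) ^ ((3 * kp * j + E * N) * m))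
    (fun j => (2:ℝ) ^ ((3 * kp * ((N : ℝ) - j) + E * N) * m)) (fun j => (2:ℝ) ^ ((2 * kp * j + E * N) * m))
    (fun j => (2:ℝ) ^ ((2 * kp * ((N : ℝ) - j) + E * N) * m)) (one_le_pow₀ hL1) hlam (by positivity)
    (fun r s t => mult1 hL (hv a ha) (hv b hb) (hv c hc) ht r s t)
    (pairs_cfg hL hΛ hC hSP hc (fun p hp => (hμ p hp).2.2) _ _ (xf_right (hv b hb) (hv c hc)) (xf_right (hv a ha) (hv c hc)))
    (pairs_cfg hL hΛ hC hSP hb (fun p hp => (hμ p hp).2.1) _ _ (xf_left (hv b hb) (hv c hc)) (xf_right (hv a ha) (hv b hb)))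
    (fun j hj => cnt_cells hC hSP hj) (fun j hj r => cnt_cell hC hSP hj r)
    (fun j hj => cnt_prj hC hSP ha (fun p hp => (hμ p hp).1) hj)
    (fun j hj r => cnt_prj_cell hC hSP ha (fun p hp => (hμ p hp).1) hj r)
    (fun j _ r => mult8 hL (hv b hb) (hv c hc) _ r)
    (fun j _ r s => mult9 hL (hv a ha) (hv b hb) (hv c hc) ht _ r s)
    (fun r s => by
      have := mult10 (S := S) hL (hv a ha) (hv b hb) (hv c hc) ht r s
      rw [Nat.sub_self, Nat.zero_mul]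
      exact this)
  refine ⟨h.1, fun j hj r => ?_, fun j hj => h.2.2 j hj⟩
  have h2 := h.2.1 j hj r
  unfold popu
  rw [Finset.filter_filter]
  exact h2

/-- Loomis-Whitney in the frame `a, b, c` -/
theorem lw_frame (hL : 2 ≤ L) (hΛ : (2:ℝ) ^ (E * N * m) ≤ L) (hC : Cfg kp E d N m P Th v μ) (hSP : S ⊆ P)
    {a b c : ι} (ha : a ∈ Th) (hb : b ∈ Th) (hc : c ∈ Th)
    (hμ : ∀ p ∈ S, μ p a ≠ 0 ∧ μ p b ≠ 0 ∧ μ p c ≠ 0) (hv : ∀ θ ∈ Th, ∀ i, |v θ i| ≤ L)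
    (ht : L⁻¹ ≤ |tri (v a) (v b) (v c)|) :
    (S.card : ℝ) ^ 2 ≤ (L ^ 32 * (2:ℝ) ^ (2 * kp * N * m)) ^ 2 *
      ((S.image fun p => (xf (v b) (v c) p, xf (v a) (v c) p)).card : ℝ) := by
  have hL0 : 0 < L := by linarith
  set T := S.image fun p => (xf (v b) (v c) p, xf (v a) (v c) p, xf (v a) (v b) p) with hT
  have h1 : (S.card : ℝ) ≤ (T.card : ℝ) * L ^ 21 := by
    refine card_le_of_fib S _ (L ^ 21) fun t _ => ?_
    have e : (S.filter fun p => (xf (v b) (v c) p, xf (v a) (v c) p, xf (v a) (v b) p) = t) =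
        S.filter fun p => xf (v b) (v c) p = t.1 ∧ xf (v a) (v c) p = t.2.1 ∧ xf (v a) (v b) p = t.2.2 := by
      refine Finset.filter_congr fun p _ => ?_
      rw [Prod.ext_iff, Prod.ext_iff]
    rw [e]
    have h := mult1 (S := S) hL (hv a ha) (hv b hb) (hv c hc) ht t.1 t.2.1 t.2.2
    exact h
  have h2 := lw3 S (xf (v b) (v c)) (xf (v a) (v c)) (xf (v a) (v b))
  have h3 := pairs_cfg hL hΛ hC hSP hb (fun p hp => (hμ p hp).2.1) (xf (v b) (v c)) (xf (v a) (v b))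
    (xf_left (hv b hb) (hv c hc)) (xf_right (hv a ha) (hv b hb))
  have h4 := pairs_cfg hL hΛ hC hSP ha (fun p hp => (hμ p hp).1) (xf (v a) (v c)) (xf (v a) (v b))
    (xf_left (hv a ha) (hv c hc)) (xf_left (hv a ha) (hv b hb))
  set M := L ^ 11 * (2:ℝ) ^ (2 * kp * N * m) with hM
  have hM0 : 0 ≤ M := by positivity
  have h5 : (T.card : ℝ) ^ 2 ≤ ((S.image fun p => (xf (v b) (v c) p, xf (v a) (v c) p)).card : ℝ) * (M * M) :=
    h2.trans (mul_le_mul_of_nonneg_left (mul_le_mul h3 h4 (Nat.cast_nonneg _) hM0) (Nat.cast_nonneg _))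
  calc (S.card : ℝ) ^ 2 ≤ ((T.card : ℝ) * L ^ 21) ^ 2 := pow_le_pow_left₀ (Nat.cast_nonneg _) h1 2
    _ = (T.card : ℝ) ^ 2 * (L ^ 21) ^ 2 := by ring
    _ ≤ (((S.image fun p => (xf (v b) (v c) p, xf (v a) (v c) p)).card : ℝ) * (M * M)) * (L ^ 21) ^ 2 :=
        mul_le_mul_of_nonneg_right h5 (by positivity)
    _ = _ := by rw [hM]; ring

end

theorem le_of_mul_two {x a b y : ℝ} (h : x * (2:ℝ) ^ a ≤ y) (hy : y = (2:ℝ) ^ b) : x ≤ (2:ℝ) ^ (b - a) := by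
  have h0 : (0:ℝ) < (2:ℝ) ^ a := Real.rpow_pos_of_pos (by norm_num) _
  rw [Real.rpow_sub (by norm_num), le_div_iff₀ h0, ← hy]
  exact h

/-- **[GEO]** -/
theorem stGEO : StGEO := by
  classical
  intro C₁ hC₁
  refine ⟨64 * C₁, by linarith, fun E N hE hE1 hEN => ⟨1, ?_⟩⟩
  intro m kp d hm hkp hkp1 ι P Th v μ hC S a b c g hSP ha hb hc hμ ht hg
  have h2 : (0:ℝ) < 2 := by norm_num
  have hm' : (1:ℝ) ≤ m := by exact_mod_cast hm
  have hENm : 1 ≤ E * N * m := by nlinarith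
  have hCENm : E * N * m ≤ C₁ * E * N * m := by
    have : E * N * m ≤ C₁ * (E * N * m) := by nlinarith
    linarith
  set L := (2:ℝ) ^ (C₁ * E * N * m) with hLdef
  have hL : 2 ≤ L := by
    rw [hLdef]
    calc (2:ℝ) = (2:ℝ) ^ (1:ℝ) := (Real.rpow_one 2).symm
      _ ≤ _ := Real.rpow_le_rpow_of_exponent_le (by norm_num) (by linarith)
  have hΛ : (2:ℝ) ^ (E * N * m) ≤ L := Real.rpow_le_rpow_of_exponent_le (by norm_num) hCENm
  have hv : ∀ θ ∈ Th, ∀ i, |v θ i| ≤ L := fun θ hθ i => (hC.vb θ hθ i).trans hΛ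
  have ht' : L⁻¹ ≤ |tri (v a) (v b) (v c)| := by
    rw [hLdef, ← Real.rpow_neg h2.le]
    exact ht
  have hlam : (0:ℝ) < (2:ℝ) ^ ((2 * kp - g) * N * m) := Real.rpow_pos_of_pos h2 _
  obtain ⟨g1, g2, g3⟩ := pop_frame hL hΛ hC hSP ha hb hc hμ hv ht' hlam
  have g4 := lw_frame hL hΛ hC hSP ha hb hc hμ hv ht'
  have hN0 : (0:ℝ) ≤ N := Nat.cast_nonneg _
  have hgN : 0 ≤ g * N * m := by positivity
  have hp : ∀ k : ℕ, L ^ k = (2:ℝ) ^ ((k : ℝ) * (C₁ * E * N * m)) := fun k => pow_L hLdef k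
  refine ⟨g1.trans ?_, ⟨fun x hx => ?_, fun j hj r => ?_, fun j hj => ?_⟩, ?_⟩
  · have e1 : (2:ℝ) ^ ((2 * kp - g) * N * m) * L ^ 22 = ((2:ℝ) ^ ((kp - g / 2) * N * m) * L ^ 11) ^ 2 := by
      rw [mul_pow, ← pow_mul, ← Real.rpow_natCast ((2:ℝ) ^ ((kp - g / 2) * N * m)), ← Real.rpow_mul h2.le]
      congr 2
      push_cast
      ring
    have e2 : Real.sqrt ((2:ℝ) ^ ((2 * kp - g) * N * m) * L ^ 21) ≤ (2:ℝ) ^ ((kp - g / 2) * N * m) * L ^ 11 := by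
      rw [← Real.sqrt_sq (by positivity : (0:ℝ) ≤ (2:ℝ) ^ ((kp - g / 2) * N * m) * L ^ 11), ← e1]
      refine Real.sqrt_le_sqrt (mul_le_mul_of_nonneg_left ?_ hlam.le)
      exact pow_le_pow_right₀ (by linarith) (by norm_num)
    refine (mul_le_mul_of_nonneg_right e2 (by positivity)).trans ?_
    rw [hp, ← Real.rpow_add h2, ← Real.rpow_add h2, ← Real.rpow_add h2]
    refine Real.rpow_le_rpow_of_exponent_le (by norm_num) ?_
    push_cast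
    linarith
  · have hx' := (Finset.mem_filter.1 hx).1
    obtain ⟨p, hpS, rfl⟩ := Finset.mem_image.1 hx'
    obtain ⟨b1, b2⟩ := hC.box p (hSP hpS)
    refine (xf_size hL (hv b hb) (hv c hc) b1 b2).trans ?_
    rw [hp, ← Real.rpow_natCast 2 (N * m), ← Real.rpow_add h2]
    refine Real.rpow_le_rpow_of_exponent_le (by norm_num) ?_
    push_cast
    linarith
  · have h3 := g2 j hj r
    rw [hp, ← Real.rpow_add h2, ← Real.rpow_add h2] at h3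
    refine (le_of_mul_two h3 rfl).trans (Real.rpow_le_rpow_of_exponent_le (by norm_num) ?_)
    push_cast
    linarith
  · have h3 := g3 j hj
    rw [← pow_mul, hp, ← Real.rpow_add h2, ← Real.rpow_add h2] at h3
    refine (le_of_mul_two h3 rfl).trans (Real.rpow_le_rpow_of_exponent_le (by norm_num) ?_)
    push_cast
    linarith
  · refine g4.trans (mul_le_mul_of_nonneg_right ?_ (Nat.cast_nonneg _))
    rw [hp, ← Real.rpow_add h2, ← Real.rpow_natCast _ 2, ← Real.rpow_mul h2.le]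
    refine Real.rpow_le_rpow_of_exponent_le (by norm_num) ?_
    push_cast
    linarith

end Vale.Agent.P076.H645
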