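import Mathlib.Algebra.Order.Chebyshev
import Vale.Agent.P076.H732.FinDefs2

/-!
# P076 / BG / GEO, first part (helper645) : geometry of the functionals `lf`, counting of cells
-/

set_option autoImplicit false

namespace Vale.Agent.P076.H645

open Finset Vale.Agent.P076.H732

/-! ### counting -/

theorem card_int_le (F : Finset ℤ) (B : ℝ) (hB : 0 ≤ B) (h : ∀ x ∈ F, ∀ y ∈ F, |(x : ℝ) - y| ≤ B) :
    (F.card : ℝ) ≤ 2 * B + 1 := by
  rcases F.eq_empty_or_nonempty with h0 | ⟨x₀, hx₀⟩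
  · rw [h0, Finset.card_empty]
    push_cast
    linarith
  · have hsub : F ⊆ Finset.Icc (x₀ - ⌊B⌋) (x₀ + ⌊B⌋) := by
      intro x hx
      have h1 := abs_le.1 (h x hx x₀ hx₀)
      have h2 : x - x₀ ≤ ⌊B⌋ := Int.le_floor.2 (by push_cast; linarith)
      have h3 : x₀ - x ≤ ⌊B⌋ := Int.le_floor.2 (by push_cast; linarith)
      rw [Finset.mem_Icc]
      constructor <;> linarith
    have h4 := Finset.card_le_card hsub
    rw [Int.card_Icc] at h4
    have h5 : 0 ≤ ⌊B⌋ := Int.floor_nonneg.2 hB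
    have h6 : ((x₀ + ⌊B⌋ + 1 - (x₀ - ⌊B⌋)).toNat : ℤ) = 2 * ⌊B⌋ + 1 := by
      rw [Int.toNat_of_nonneg (by linarith)]
      ring
    have h7 : (F.card : ℤ) ≤ 2 * ⌊B⌋ + 1 := by
      rw [← h6]
      exact_mod_cast h4
    have h8 : (F.card : ℝ) ≤ 2 * (⌊B⌋ : ℝ) + 1 := by exact_mod_cast h7
    linarith [Int.floor_le B]

theorem card_Z3_le (F : Finset Z3) (B : ℝ) (hB : 0 ≤ B)
    (h : ∀ p ∈ F, ∀ p' ∈ F, |(p.1 : ℝ) - p'.1| ≤ B ∧ ∀ i, |(p.2 i : ℝ) - p'.2 i| ≤ B) :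
    (F.card : ℝ) ≤ (2 * B + 1) ^ 3 := by
  have hinj : Function.Injective (fun p : Z3 => (p.1, p.2 0, p.2 1)) := by
    intro p p' hpp
    simp only [Prod.mk.injEq] at hpp
    obtain ⟨e1, e2, e3⟩ := hpp
    refine Prod.ext e1 (funext fun i => ?_)
    fin_cases i
    · exact e2
    · exact e3
  have h1 : F.card = (F.image fun p : Z3 => (p.1, p.2 0, p.2 1)).card := (Finset.card_image_of_injective _ hinj).symm
  have hsub : (F.image fun p : Z3 => (p.1, p.2 0, p.2 1)) ⊆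
      (F.image fun p : Z3 => p.1) ×ˢ ((F.image fun p : Z3 => p.2 0) ×ˢ (F.image fun p : Z3 => p.2 1)) := by
    intro z hz
    obtain ⟨p, hp, rfl⟩ := Finset.mem_image.1 hz
    exact Finset.mem_product.2 ⟨Finset.mem_image_of_mem _ hp,
      Finset.mem_product.2 ⟨Finset.mem_image_of_mem _ hp, Finset.mem_image_of_mem _ hp⟩⟩
  have h2 := Finset.card_le_card hsub
  rw [Finset.card_product, Finset.card_product] at h2
  have hB1 : 0 ≤ 2 * B + 1 := by linarith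
  have g1 : (((F.image fun p : Z3 => p.1).card : ℕ) : ℝ) ≤ 2 * B + 1 := by
    refine card_int_le _ B hB fun x hx y hy => ?_
    obtain ⟨p, hp, rfl⟩ := Finset.mem_image.1 hx
    obtain ⟨p', hp', rfl⟩ := Finset.mem_image.1 hy
    exact (h p hp p' hp').1
  have g2 : ∀ i, (((F.image fun p : Z3 => p.2 i).card : ℕ) : ℝ) ≤ 2 * B + 1 := by
    intro i
    refine card_int_le _ B hB fun x hx y hy => ?_
    obtain ⟨p, hp, rfl⟩ := Finset.mem_image.1 hx
    obtain ⟨p', hp', rfl⟩ := Finset.mem_image.1 hy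
    exact (h p hp p' hp').2 i
  have h3 : (F.card : ℝ) ≤ ((F.image fun p : Z3 => p.1).card : ℝ) *
      (((F.image fun p : Z3 => p.2 0).card : ℝ) * ((F.image fun p : Z3 => p.2 1).card : ℝ)) := by
    rw [h1]
    exact_mod_cast h2
  calc (F.card : ℝ) ≤ _ := h3
    _ ≤ (2 * B + 1) * ((2 * B + 1) * (2 * B + 1)) :=
        mul_le_mul g1 (mul_le_mul (g2 0) (g2 1) (Nat.cast_nonneg _) hB1) (by positivity) hB1
    _ = _ := by ring

/-- an image counted along another one -/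
theorem card_image_le_mul {α β γ : Type} [DecidableEq β] [DecidableEq γ] (S : Finset α) (g : α → β) (r : α → γ) (K : ℝ)
    (h : ∀ t, (((S.filter fun s => r s = t).image g).card : ℝ) ≤ K) :
    ((S.image g).card : ℝ) ≤ ((S.image r).card : ℝ) * K := by
  have hsub : S.image g ⊆ (S.image r).biUnion fun t => (S.filter fun s => r s = t).image g := by
    intro b hb
    obtain ⟨s, hs, rfl⟩ := Finset.mem_image.1 hb
    refine Finset.mem_biUnion.2 ⟨r s, Finset.mem_image_of_mem _ hs, ?_⟩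
    exact Finset.mem_image_of_mem _ (Finset.mem_filter.2 ⟨hs, rfl⟩)
  have h1 : ((S.image g).card : ℝ) ≤ ∑ t ∈ S.image r, (((S.filter fun s => r s = t).image g).card : ℝ) := by
    exact_mod_cast (Finset.card_le_card hsub).trans Finset.card_biUnion_le
  calc _ ≤ _ := h1
    _ ≤ ∑ _t ∈ S.image r, K := Finset.sum_le_sum fun t _ => h t
    _ = _ := by rw [Finset.sum_const, nsmul_eq_mul]

open Classical in
/-- pairs of integers in a box -/
theorem card_pair_le {α : Type} (S : Finset α) (x y : α → ℤ) (B : ℝ) (hB : 0 ≤ B)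
    (hx : ∀ s ∈ S, ∀ s' ∈ S, |(x s : ℝ) - x s'| ≤ B) (hy : ∀ s ∈ S, ∀ s' ∈ S, |(y s : ℝ) - y s'| ≤ B) :
    ((S.image fun s => (x s, y s)).card : ℝ) ≤ (2 * B + 1) ^ 2 := by
  have hsub : (S.image fun s => (x s, y s)) ⊆ (S.image x) ×ˢ (S.image y) := by
    intro z hz
    obtain ⟨s, hs, rfl⟩ := Finset.mem_image.1 hz
    exact Finset.mem_product.2 ⟨Finset.mem_image_of_mem _ hs, Finset.mem_image_of_mem _ hs⟩
  have h2 := Finset.card_le_card hsub
  rw [Finset.card_product] at h2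
  have g1 : ((S.image x).card : ℝ) ≤ 2 * B + 1 := by
    refine card_int_le _ B hB fun u hu w hw => ?_
    obtain ⟨s, hs, rfl⟩ := Finset.mem_image.1 hu
    obtain ⟨s', hs', rfl⟩ := Finset.mem_image.1 hw
    exact hx s hs s' hs'
  have g2 : ((S.image y).card : ℝ) ≤ 2 * B + 1 := by
    refine card_int_le _ B hB fun u hu w hw => ?_
    obtain ⟨s, hs, rfl⟩ := Finset.mem_image.1 hu
    obtain ⟨s', hs', rfl⟩ := Finset.mem_image.1 hw
    exact hy s hs s' hs'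
  calc ((S.image fun s => (x s, y s)).card : ℝ) ≤ ((S.image x).card : ℝ) * ((S.image y).card : ℝ) := by exact_mod_cast h2
    _ ≤ (2 * B + 1) * (2 * B + 1) := mul_le_mul g1 g2 (Nat.cast_nonneg _) (by linarith)
    _ = _ := by ring

/-! ### Loomis-Whitney -/

open Classical in
theorem lw3 {α : Type} (S : Finset α) (x y z : α → ℤ) :
    ((S.image fun s => (x s, y s, z s)).card : ℝ) ^ 2 ≤
      ((S.image fun s => (x s, y s)).card : ℝ) *
        (((S.image fun s => (x s, z s)).card : ℝ) * ((S.image fun s => (y s, z s)).card : ℝ)) := by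
  set T := S.image fun s => (x s, y s, z s) with hT
  set P := S.image fun s => (x s, y s) with hP
  set n : ℤ × ℤ → ℝ := fun w => ((T.filter fun t => (t.1, t.2.1) = w).card : ℝ) with hn
  have hTP : T.image (fun t => (t.1, t.2.1)) = P := by
    rw [hT, hP, Finset.image_image]
    rfl
  have h1 : (T.card : ℝ) = ∑ w ∈ P, n w := by
    rw [Finset.card_eq_sum_card_image (fun t : ℤ × ℤ × ℤ => (t.1, t.2.1)) T, hTP]
    push_cast
    rfl
  have h2 : (∑ w ∈ P, n w) ^ 2 ≤ (P.card : ℝ) * ∑ w ∈ P, n w ^ 2 := sq_sum_le_card_mul_sum_sq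
  have h3 : ∑ w ∈ P, n w ^ 2 ≤ ((S.image fun s => (x s, z s)).card : ℝ) * ((S.image fun s => (y s, z s)).card : ℝ) := by
    set D := (T ×ˢ T).filter fun d => (d.1.1, d.1.2.1) = (d.2.1, d.2.2.1) with hD
    have h4 : ∑ w ∈ P, n w ^ 2 = (D.card : ℝ) := by
      have : D.card = ∑ w ∈ P, (D.filter fun d => (d.1.1, d.1.2.1) = w).card := by
        refine Finset.card_eq_sum_card_fiberwise fun d hd => ?_
        have hd' := (Finset.mem_filter.1 (Finset.mem_coe.1 hd)).1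
        rw [← hTP]
        exact Finset.mem_coe.2 (Finset.mem_image_of_mem (fun t : ℤ × ℤ × ℤ => (t.1, t.2.1)) (Finset.mem_product.1 hd').1)
      rw [this]
      push_cast
      refine Finset.sum_congr rfl fun w _ => ?_
      have e : (D.filter fun d => (d.1.1, d.1.2.1) = w) =
          (T.filter fun t => (t.1, t.2.1) = w) ×ˢ (T.filter fun t => (t.1, t.2.1) = w) := by
        ext ⟨d1, d2⟩
        simp only [hD, mem_filter, mem_product]
        constructor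
        · rintro ⟨⟨⟨a1, a2⟩, a3⟩, a4⟩
          exact ⟨⟨a1, a4⟩, a2, a3.symm.trans a4⟩
        · rintro ⟨⟨a1, a2⟩, a3, a4⟩
          exact ⟨⟨⟨a1, a3⟩, a2.trans a4.symm⟩, a2⟩
      rw [e, Finset.card_product]
      push_cast
      rw [hn]
      ring
    rw [h4]
    have hinj : Set.InjOn (fun d : (ℤ × ℤ × ℤ) × (ℤ × ℤ × ℤ) => ((d.1.1, d.1.2.2), (d.2.2.1, d.2.2.2))) (D : Set _) := by
      intro d hd d' hd' he
      have a1 := (Finset.mem_filter.1 (Finset.mem_coe.1 hd)).2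
      have a2 := (Finset.mem_filter.1 (Finset.mem_coe.1 hd')).2
      simp only [Prod.mk.injEq] at he a1 a2
      obtain ⟨⟨e1, e2⟩, e3, e4⟩ := he
      refine Prod.ext (Prod.ext e1 (Prod.ext ?_ e2)) (Prod.ext ?_ (Prod.ext e3 e4))
      · rw [a1.2, a2.2, e3]
      · rw [← a1.1, ← a2.1, e1]
    have hmap : ∀ d ∈ D, (fun d : (ℤ × ℤ × ℤ) × (ℤ × ℤ × ℤ) => ((d.1.1, d.1.2.2), (d.2.2.1, d.2.2.2))) d ∈
        (S.image fun s => (x s, z s)) ×ˢ (S.image fun s => (y s, z s)) := by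
      intro d hd
      have hd' := Finset.mem_product.1 (Finset.mem_filter.1 hd).1
      obtain ⟨s, hs, e1⟩ := Finset.mem_image.1 hd'.1
      obtain ⟨s', hs', e2⟩ := Finset.mem_image.1 hd'.2
      refine Finset.mem_product.2 ⟨Finset.mem_image.2 ⟨s, hs, ?_⟩, Finset.mem_image.2 ⟨s', hs', ?_⟩⟩
      · simp only [← e1]
      · simp only [← e2]
    have h5 := Finset.card_le_card_of_injOn _ hmap hinj
    rw [Finset.card_product] at h5
    exact_mod_cast h5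
  rw [h1]
  exact h2.trans (mul_le_mul_of_nonneg_left h3 (Nat.cast_nonneg _))

/-! ### geometry -/

section
variable {u v w : Fin 2 → ℝ} {p p' : Z3} {L R R' : ℝ}

theorem tri_eq (u v w : Fin 2 → ℝ) : tri u v w = (u 0 - w 0) * (v 1 - w 1) - (u 1 - w 1) * (v 0 - w 0) := rfl

theorem lf_sub (u v : Fin 2 → ℝ) (p p' : Z3) : lf u v p - lf u v p' =
    (((p.2 0 : ℝ) - p'.2 0) - ((p.1 : ℝ) - p'.1) * v 0) * (u 1 - v 1) -
      (((p.2 1 : ℝ) - p'.2 1) - ((p.1 : ℝ) - p'.1) * v 1) * (u 0 - v 0) := by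
  unfold lf cr
  ring

theorem lf_sub' (u v : Fin 2 → ℝ) (p p' : Z3) : lf u v p - lf u v p' =
    (((p.2 0 : ℝ) - p'.2 0) - ((p.1 : ℝ) - p'.1) * u 0) * (u 1 - v 1) -
      (((p.2 1 : ℝ) - p'.2 1) - ((p.1 : ℝ) - p'.1) * u 1) * (u 0 - v 0) := by
  unfold lf cr
  ring

theorem abs_sub_le_two (hu : ∀ i, |u i| ≤ L) (hv : ∀ i, |v i| ≤ L) (i : Fin 2) : |u i - v i| ≤ 2 * L := by
  have h1 := abs_le.1 (hu i)
  have h2 := abs_le.1 (hv i)
  rw [abs_le]
  constructor <;> linarith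

theorem cr_bound {a b c d A B : ℝ} (hA : 0 ≤ A) (h1 : |a| ≤ A) (h2 : |b| ≤ B) (h3 : |c| ≤ A) (h4 : |d| ≤ B) :
    |a * b - c * d| ≤ 2 * A * B := by
  have g1 : |a * b| ≤ A * B := by
    rw [abs_mul]
    exact mul_le_mul h1 h2 (abs_nonneg _) hA
  have g2 : |c * d| ≤ A * B := by
    rw [abs_mul]
    exact mul_le_mul h3 h4 (abs_nonneg _) hA
  have g3 := abs_le.1 g1
  have g4 := abs_le.1 g2
  rw [abs_le]
  constructor <;> linarith

/-- the functional depends only on the projection along its second direction -/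
theorem lf_proj (hu : ∀ i, |u i| ≤ L) (hv : ∀ i, |v i| ≤ L) (hR : 0 ≤ R)
    (h : ∀ i, |((p.2 i : ℝ) - p'.2 i) - ((p.1 : ℝ) - p'.1) * v i| ≤ R) : |lf u v p - lf u v p'| ≤ 4 * L * R := by
  rw [lf_sub]
  have := cr_bound hR (h 0) (abs_sub_le_two hu hv 1) (h 1) (abs_sub_le_two hu hv 0)
  linarith

/-- the functional depends only on the projection along its first direction -/
theorem lf_proj' (hu : ∀ i, |u i| ≤ L) (hv : ∀ i, |v i| ≤ L) (hR : 0 ≤ R)
    (h : ∀ i, |((p.2 i : ℝ) - p'.2 i) - ((p.1 : ℝ) - p'.1) * u i| ≤ R) : |lf u v p - lf u v p'| ≤ 4 * L * R := by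
  rw [lf_sub']
  have := cr_bound hR (h 0) (abs_sub_le_two hu hv 1) (h 1) (abs_sub_le_two hu hv 0)
  linarith

theorem proj_le (hL : 1 ≤ L) (hv : ∀ i, |v i| ≤ L) (h1 : |(p.1 : ℝ) - p'.1| ≤ R)
    (h2 : ∀ i, |(p.2 i : ℝ) - p'.2 i| ≤ R) (i : Fin 2) :
    |((p.2 i : ℝ) - p'.2 i) - ((p.1 : ℝ) - p'.1) * v i| ≤ 2 * L * R := by
  have hR : 0 ≤ R := (abs_nonneg _).trans h1
  have g1 : |((p.1 : ℝ) - p'.1) * v i| ≤ R * L := by
    rw [abs_mul]
    exact mul_le_mul h1 (hv i) (abs_nonneg _) hR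
  have g2 := abs_le.1 g1
  have g3 := abs_le.1 (h2 i)
  have g4 : R ≤ R * L := le_mul_of_one_le_right hR hL
  rw [abs_le]
  constructor <;> linarith

/-- Lipschitz bound -/
theorem lf_lip (hL : 1 ≤ L) (hu : ∀ i, |u i| ≤ L) (hv : ∀ i, |v i| ≤ L) (h1 : |(p.1 : ℝ) - p'.1| ≤ R)
    (h2 : ∀ i, |(p.2 i : ℝ) - p'.2 i| ≤ R) : |lf u v p - lf u v p'| ≤ 8 * L ^ 2 * R := by
  have hR : 0 ≤ R := (abs_nonneg _).trans h1
  have := lf_proj (p := p) (p' := p') (R := 2 * L * R) hu hv (by positivity) (proj_le hL hv h1 h2)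
  calc _ ≤ _ := this
    _ = _ := by ring

theorem div_tri {t : ℝ} (hL : 1 ≤ L) (ht : L⁻¹ ≤ |tri u v w|) (h : |t * tri u v w| ≤ R) : |t| ≤ L * R := by
  have hL0 : 0 < L := by linarith
  have h0 : 0 < |tri u v w| := lt_of_lt_of_le (inv_pos.2 hL0) ht
  rw [abs_mul] at h
  have h1 : |t| * L⁻¹ ≤ R := (mul_le_mul_of_nonneg_left ht (abs_nonneg _)).trans h
  have h2 : |t| = L * (|t| * L⁻¹) := by field_simp
  rw [h2]
  exact mul_le_mul_of_nonneg_left h1 hL0.le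

/-- the projection along `u` and the functional `lf v w` determine the point -/
theorem recover (hL : 1 ≤ L) (hu : ∀ i, |u i| ≤ L) (hv : ∀ i, |v i| ≤ L) (hw : ∀ i, |w i| ≤ L) (ht : L⁻¹ ≤ |tri u v w|)
    (hR : 0 ≤ R) (h1 : ∀ i, |((p.2 i : ℝ) - p'.2 i) - ((p.1 : ℝ) - p'.1) * u i| ≤ R) (h2 : |lf v w p - lf v w p'| ≤ 2 * R)
    : |(p.1 : ℝ) - p'.1| ≤ 6 * L ^ 2 * R ∧ ∀ i, |(p.2 i : ℝ) - p'.2 i| ≤ 7 * L ^ 3 * R := by
  have e : ((p.1 : ℝ) - p'.1) * tri u v w = (lf v w p - lf v w p') -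
      ((((p.2 0 : ℝ) - p'.2 0) - ((p.1 : ℝ) - p'.1) * u 0) * (v 1 - w 1) -
        (((p.2 1 : ℝ) - p'.2 1) - ((p.1 : ℝ) - p'.1) * u 1) * (v 0 - w 0)) := by
    rw [tri_eq]
    unfold lf cr
    ring
  have g1 : |((p.1 : ℝ) - p'.1) * tri u v w| ≤ 2 * R + 4 * L * R := by
    rw [e]
    have g2 := cr_bound hR (h1 0) (abs_sub_le_two hv hw 1) (h1 1) (abs_sub_le_two hv hw 0)
    refine (abs_sub _ _).trans ?_
    linarith
  have g3 : |(p.1 : ℝ) - p'.1| ≤ 6 * L ^ 2 * R := by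
    refine (div_tri hL ht g1).trans ?_
    have : L * R ≤ L ^ 2 * R := by
      have : L ≤ L ^ 2 := by nlinarith
      exact mul_le_mul_of_nonneg_right this hR
    nlinarith
  refine ⟨g3, fun i => ?_⟩
  have g4 : |((p.1 : ℝ) - p'.1) * u i| ≤ 6 * L ^ 2 * R * L := by
    rw [abs_mul]
    exact mul_le_mul g3 (hu i) (abs_nonneg _) (by positivity)
  have g5 := abs_le.1 g4
  have g6 := abs_le.1 (h1 i)
  have g7 : R ≤ L ^ 3 * R := le_mul_of_one_le_left hR (one_le_pow₀ hL)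
  rw [abs_le]
  constructor <;> nlinarith

/-- the three functionals determine the point -/
theorem recover3 (hL : 1 ≤ L) (hu : ∀ i, |u i| ≤ L) (hv : ∀ i, |v i| ≤ L) (hw : ∀ i, |w i| ≤ L) (ht : L⁻¹ ≤ |tri u v w|)
    (hR : 0 ≤ R) (h1 : |lf v w p - lf v w p'| ≤ R) (h2 : |lf u w p - lf u w p'| ≤ R) (h3 : |lf u v p - lf u v p'| ≤ R)
    : |(p.1 : ℝ) - p'.1| ≤ 7 * L ^ 3 * R ∧ ∀ i, |(p.2 i : ℝ) - p'.2 i| ≤ 7 * L ^ 3 * R := by
  have e : ((p.1 : ℝ) - p'.1) * tri u v w = (lf v w p - lf v w p') - (lf u w p - lf u w p') + (lf u v p - lf u v p') := by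
    rw [tri_eq]
    unfold lf cr
    ring
  have hLL : L ≤ L ^ 3 := by nlinarith [mul_self_nonneg (L - 1), mul_nonneg (by linarith : (0:ℝ) ≤ L) (by linarith : (0:ℝ) ≤ L - 1)]
  have hLL2 : L ^ 2 ≤ L ^ 3 := pow_le_pow_right₀ hL (by norm_num)
  have a1 := abs_le.1 h1
  have a2 := abs_le.1 h2
  have a3 := abs_le.1 h3
  have g1 : |((p.1 : ℝ) - p'.1) * tri u v w| ≤ 3 * R := by
    rw [e, abs_le]
    constructor <;> linarith
  have g3 : |(p.1 : ℝ) - p'.1| ≤ L * (3 * R) := div_tri hL ht g1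
  have g4 : ∀ i, |((p.2 i : ℝ) - p'.2 i) - ((p.1 : ℝ) - p'.1) * u i| ≤ L * (4 * L * R) := by
    intro i
    refine div_tri hL ht ?_
    have e2 : (((p.2 i : ℝ) - p'.2 i) - ((p.1 : ℝ) - p'.1) * u i) * tri u v w =
        (lf u w p - lf u w p') * (u i - v i) - (lf u v p - lf u v p') * (u i - w i) := by
      fin_cases i
      · simp only [Fin.zero_eta, Fin.isValue]
        rw [tri_eq]
        unfold lf cr
        ring
      · simp only [Fin.mk_one, Fin.isValue]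
        rw [tri_eq]
        unfold lf cr
        ring
    rw [e2]
    have := cr_bound hR h2 (abs_sub_le_two hu hv i) h3 (abs_sub_le_two hu hw i)
    linarith
  constructor
  · refine g3.trans ?_
    have : L * R ≤ L ^ 3 * R := mul_le_mul_of_nonneg_right hLL hR
    nlinarith
  · intro i
    have g5 : |((p.1 : ℝ) - p'.1) * u i| ≤ L * (3 * R) * L := by
      rw [abs_mul]
      exact mul_le_mul g3 (hu i) (abs_nonneg _) (by positivity)
    have g6 := abs_le.1 g5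
    have g7 := abs_le.1 (g4 i)
    have g8 : L ^ 2 * R ≤ L ^ 3 * R := mul_le_mul_of_nonneg_right hLL2 hR
    rw [abs_le]
    constructor <;> nlinarith

end

/-! ### floors -/

theorem xf_close {u v : Fin 2 → ℝ} {p p' : Z3} (h : xf u v p = xf u v p') : |lf u v p - lf u v p'| ≤ 1 :=
  (Int.abs_sub_lt_one_of_floor_eq_floor h).le

theorem xf_sub_le {u v : Fin 2 → ℝ} {p p' : Z3} {B : ℝ} (h : |lf u v p - lf u v p'| ≤ B) :
    |(xf u v p : ℝ) - xf u v p'| ≤ B + 1 := by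
  unfold xf
  have h1 := Int.floor_le (lf u v p)
  have h2 := Int.lt_floor_add_one (lf u v p)
  have h3 := Int.floor_le (lf u v p')
  have h4 := Int.lt_floor_add_one (lf u v p')
  have h5 := abs_le.1 h
  rw [abs_le]
  constructor <;> linarith

theorem div_close {a b : ℤ} {k : ℕ} (h : a / 2 ^ k = b / 2 ^ k) : |(a : ℝ) - b| ≤ 2 ^ k := by
  have hk : (0 : ℤ) < 2 ^ k := by positivity
  have h1 := Int.emod_nonneg a hk.ne'
  have h2 := Int.emod_lt_of_pos a hk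
  have h3 := Int.emod_nonneg b hk.ne'
  have h4 := Int.emod_lt_of_pos b hk
  have h5 := Int.mul_ediv_add_emod a (2 ^ k)
  have h6 := Int.mul_ediv_add_emod b (2 ^ k)
  rw [h] at h5
  have h7 : a - b ≤ 2 ^ k := by linarith
  have h8 : -(2 ^ k) ≤ a - b := by linarith
  have h9 : ((a - b : ℤ) : ℝ) ≤ ((2 ^ k : ℤ) : ℝ) := by exact_mod_cast h7
  have h10 : ((-(2 ^ k) : ℤ) : ℝ) ≤ ((a - b : ℤ) : ℝ) := by exact_mod_cast h8
  push_cast at h9 h10
  rw [abs_le]
  constructor <;> linarith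

theorem div_sub_le {a b : ℤ} {k : ℕ} {B : ℝ} (h : |(a : ℝ) - b| ≤ B * 2 ^ k) :
    |((a / 2 ^ k : ℤ) : ℝ) - ((b / 2 ^ k : ℤ) : ℝ)| ≤ B + 1 := by
  have hk : (0 : ℤ) < 2 ^ k := by positivity
  have hk' : (0 : ℝ) < 2 ^ k := by positivity
  have key : ∀ c : ℤ, ((c / 2 ^ k : ℤ) : ℝ) * 2 ^ k ≤ c ∧ (c : ℝ) < ((c / 2 ^ k : ℤ) : ℝ) * 2 ^ k + 2 ^ k := by
    intro c
    have h1 := Int.emod_nonneg c hk.ne'
    have h2 := Int.emod_lt_of_pos c hk
    have h5 := Int.mul_ediv_add_emod c (2 ^ k)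
    have h6 : (c / 2 ^ k) * 2 ^ k ≤ c := by linarith
    have h7 : c < (c / 2 ^ k) * 2 ^ k + 2 ^ k := by linarith
    constructor
    · exact_mod_cast h6
    · exact_mod_cast h7
  obtain ⟨a1, a2⟩ := key a
  obtain ⟨b1, b2⟩ := key b
  have h1 := abs_le.1 h
  rw [abs_le]
  constructor
  · by_contra hc
    push Not at hc
    have := mul_lt_mul_of_pos_right hc hk'
    nlinarith
  · by_contra hc
    push Not at hc
    have := mul_lt_mul_of_pos_right hc hk'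
    nlinarith

theorem prj_close {v : Fin 2 → ℝ} {k : ℕ} {p p' : Z3} (h : prj v k p = prj v k p') (i : Fin 2) :
    |((p.2 i : ℝ) - p'.2 i) - ((p.1 : ℝ) - p'.1) * v i| ≤ 2 ^ k := by
  have hk' : (0 : ℝ) < 2 ^ k := by positivity
  have h1 : ⌊((p.2 i : ℝ) - p.1 * v i) / 2 ^ k⌋ = ⌊((p'.2 i : ℝ) - p'.1 * v i) / 2 ^ k⌋ := congrFun h i
  have h2 := (Int.abs_sub_lt_one_of_floor_eq_floor h1).le
  have e : ((p.2 i : ℝ) - p'.2 i) - ((p.1 : ℝ) - p'.1) * v i =
      (((p.2 i : ℝ) - p.1 * v i) / 2 ^ k - ((p'.2 i : ℝ) - p'.1 * v i) / 2 ^ k) * 2 ^ k := by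
    field_simp
    ring
  rw [e, abs_mul, abs_of_pos hk']
  calc _ ≤ 1 * (2:ℝ) ^ k := mul_le_mul_of_nonneg_right h2 hk'.le
    _ = _ := one_mul _

theorem dv_close {k : ℕ} {p p' : Z3} (h : dv k p = dv k p') :
    |(p.1 : ℝ) - p'.1| ≤ 2 ^ k ∧ ∀ i, |(p.2 i : ℝ) - p'.2 i| ≤ 2 ^ k := by
  unfold dv at h
  rw [Prod.mk.injEq] at h
  exact ⟨div_close h.1, fun i => div_close (congrFun h.2 i)⟩

end Vale.Agent.P076.H645
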