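import Vale.Agent.P076.H645.Pop
import Vale.Agent.P076.H645.Geo1

/-!
# P076 / BG / GEO, second part (helper645) : proof of `StGEO` of `H732/FinDefs2`
-/

set_option autoImplicit false

namespace Vale.Agent.P076.H645

open Finset Vale.Agent.P076.H732

/-! ### powers -/

theorem num1 {L : ℝ} (hL : 2 ≤ L) : (2 * (7 * L ^ 3 * 1) + 1) ^ 3 ≤ L ^ 21 := by
  have h3 : (8 : ℝ) ≤ L ^ 3 := by nlinarith [sq_nonneg (L - 2), mul_nonneg (by linarith : (0:ℝ) ≤ L) (by linarith : (0:ℝ) ≤ L - 2)]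
  have h4 : (16 : ℝ) ≤ L ^ 4 := by nlinarith
  have h5 : 2 * (7 * L ^ 3 * 1) + 1 ≤ L ^ 7 := by
    calc 2 * (7 * L ^ 3 * 1) + 1 ≤ 16 * L ^ 3 := by linarith
      _ ≤ L ^ 4 * L ^ 3 := mul_le_mul_of_nonneg_right h4 (by positivity)
      _ = L ^ 7 := by ring
  calc (2 * (7 * L ^ 3 * 1) + 1) ^ 3 ≤ (L ^ 7) ^ 3 := pow_le_pow_left₀ (by positivity) h5 3
    _ = L ^ 21 := by ring

theorem num2 {L : ℝ} (hL : 2 ≤ L) : (2 * (7 * L ^ 3 + 1) + 1) ^ 3 ≤ L ^ 21 := by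
  have h3 : (8 : ℝ) ≤ L ^ 3 := by nlinarith [sq_nonneg (L - 2), mul_nonneg (by linarith : (0:ℝ) ≤ L) (by linarith : (0:ℝ) ≤ L - 2)]
  have h4 : (16 : ℝ) ≤ L ^ 4 := by nlinarith
  have h5 : 2 * (7 * L ^ 3 + 1) + 1 ≤ L ^ 7 := by
    calc 2 * (7 * L ^ 3 + 1) + 1 ≤ 16 * L ^ 3 := by linarith
      _ ≤ L ^ 4 * L ^ 3 := mul_le_mul_of_nonneg_right h4 (by positivity)
      _ = L ^ 7 := by ring
  calc (2 * (7 * L ^ 3 + 1) + 1) ^ 3 ≤ (L ^ 7) ^ 3 := pow_le_pow_left₀ (by positivity) h5 3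
    _ = L ^ 21 := by ring

theorem num3 {L : ℝ} (hL : 2 ≤ L) : 2 * (9 * L ^ 2 + 1) + 1 ≤ L ^ 21 := by
  have h2 : (4 : ℝ) ≤ L ^ 2 := by nlinarith
  have h4 : (16 : ℝ) ≤ L ^ 4 := by nlinarith
  have h5 : 2 * (9 * L ^ 2 + 1) + 1 ≤ L ^ 8 := by
    calc 2 * (9 * L ^ 2 + 1) + 1 ≤ (4 * 16) * L ^ 2 := by linarith
      _ ≤ (L ^ 2 * L ^ 4) * L ^ 2 := by
        refine mul_le_mul_of_nonneg_right (mul_le_mul h2 h4 (by norm_num) (by positivity)) (by positivity)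
      _ = L ^ 8 := by ring
  exact h5.trans (pow_le_pow_right₀ (by linarith) (by norm_num))

theorem num4 {L : ℝ} (hL : 2 ≤ L) : (2 * (4 * L * 1 + 1) + 1) ^ 2 ≤ L ^ 10 := by
  have h4 : (16 : ℝ) ≤ L ^ 4 := by nlinarith [sq_nonneg (L - 2), mul_nonneg (by linarith : (0:ℝ) ≤ L) (by linarith : (0:ℝ) ≤ L - 2)]
  have h5 : 2 * (4 * L * 1 + 1) + 1 ≤ L ^ 5 := by
    calc 2 * (4 * L * 1 + 1) + 1 ≤ 16 * L := by linarith
      _ ≤ L ^ 4 * L := mul_le_mul_of_nonneg_right h4 (by positivity)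
      _ = L ^ 5 := by ring
  calc (2 * (4 * L * 1 + 1) + 1) ^ 2 ≤ (L ^ 5) ^ 2 := pow_le_pow_left₀ (by positivity) h5 2
    _ = L ^ 10 := by ring

theorem num5 {L : ℝ} (hL : 2 ≤ L) : 8 * L ^ 2 + 1 ≤ L ^ 6 := by
  have h2 : (4 : ℝ) ≤ L ^ 2 := by nlinarith
  have h4 : (16 : ℝ) ≤ L ^ 4 := by nlinarith
  calc 8 * L ^ 2 + 1 ≤ 16 * L ^ 2 := by linarith
    _ ≤ L ^ 4 * L ^ 2 := mul_le_mul_of_nonneg_right h4 (by positivity)
    _ = L ^ 6 := by ring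

/-! ### multiplicities -/

section
variable {ι : Type} {kp E d L : ℝ} {N m : ℕ} {P S : Finset Z3} {Th : Finset ι} {v : ι → Fin 2 → ℝ} {μ : Z3 → ι → ℝ}
variable {ua ub uc : Fin 2 → ℝ}

open Classical in
theorem mult1 (hL : 2 ≤ L) (ha : ∀ i, |ua i| ≤ L) (hb : ∀ i, |ub i| ≤ L) (hc : ∀ i, |uc i| ≤ L)
    (ht : L⁻¹ ≤ |tri ua ub uc|) (r s t : ℤ) :
    ((S.filter fun p => xf ub uc p = r ∧ xf ua uc p = s ∧ xf ua ub p = t).card : ℝ) ≤ L ^ 21 := by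
  refine (card_Z3_le _ (7 * L ^ 3 * 1) (by positivity) fun p hp p' hp' => ?_).trans (num1 hL)
  obtain ⟨_, h1, h2, h3⟩ := Finset.mem_filter.1 hp
  obtain ⟨_, h1', h2', h3'⟩ := Finset.mem_filter.1 hp'
  exact recover3 (by linarith) ha hb hc ht zero_le_one (xf_close (h1.trans h1'.symm)) (xf_close (h2.trans h2'.symm))
    (xf_close (h3.trans h3'.symm))

open Classical in
theorem mult8 (hL : 2 ≤ L) (hb : ∀ i, |ub i| ≤ L) (hc : ∀ i, |uc i| ≤ L) (k : ℕ) (r : Z3) :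
    (((S.filter fun p => dv k p = r).image fun p => xf ub uc p / 2 ^ k).card : ℝ) ≤ L ^ 21 := by
  refine (card_int_le _ (9 * L ^ 2 + 1) (by positivity) fun x hx y hy => ?_).trans (num3 hL)
  obtain ⟨p, hp, rfl⟩ := Finset.mem_image.1 hx
  obtain ⟨p', hp', rfl⟩ := Finset.mem_image.1 hy
  have h1 := (Finset.mem_filter.1 hp).2.trans (Finset.mem_filter.1 hp').2.symm
  obtain ⟨h2, h3⟩ := dv_close h1
  have h4 := xf_sub_le (lf_lip (by linarith) hb hc h2 h3)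
  refine div_sub_le (h4.trans ?_)
  have h5 : (1 : ℝ) ≤ 2 ^ k := one_le_pow₀ (by norm_num)
  have h6 : (1 : ℝ) ≤ L ^ 2 := one_le_pow₀ (by linarith)
  have h7 : (1 : ℝ) ≤ L ^ 2 * 2 ^ k := by nlinarith
  linarith

open Classical in
theorem mult9 (hL : 2 ≤ L) (ha : ∀ i, |ua i| ≤ L) (hb : ∀ i, |ub i| ≤ L) (hc : ∀ i, |uc i| ≤ L)
    (ht : L⁻¹ ≤ |tri ua ub uc|) (k : ℕ) (r : ℤ) (s : Fin 2 → ℤ) :
    (((S.filter fun p => xf ub uc p / 2 ^ k = r ∧ prj ua k p = s).image (dv k)).card : ℝ) ≤ L ^ 21 := by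
  refine (card_Z3_le _ (7 * L ^ 3 + 1) (by positivity) fun x hx y hy => ?_).trans (num2 hL)
  obtain ⟨p, hp, rfl⟩ := Finset.mem_image.1 hx
  obtain ⟨p', hp', rfl⟩ := Finset.mem_image.1 hy
  obtain ⟨_, h1, h2⟩ := Finset.mem_filter.1 hp
  obtain ⟨_, h1', h2'⟩ := Finset.mem_filter.1 hp'
  have h5 : (1 : ℝ) ≤ 2 ^ k := one_le_pow₀ (by norm_num)
  have h3 : |lf ub uc p - lf ub uc p'| ≤ 2 * 2 ^ k := by
    have g1 := div_close (h1.trans h1'.symm)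
    unfold xf at g1
    have g2 := Int.floor_le (lf ub uc p)
    have g3 := Int.lt_floor_add_one (lf ub uc p)
    have g4 := Int.floor_le (lf ub uc p')
    have g5 := Int.lt_floor_add_one (lf ub uc p')
    have g6 := abs_le.1 g1
    rw [abs_le]
    constructor <;> linarith
  obtain ⟨h6, h7⟩ := recover (p := p) (p' := p') (R := 2 ^ k) (by linarith) ha hb hc ht (by positivity)
    (prj_close (h2.trans h2'.symm)) h3
  have h8 : 6 * L ^ 2 * 2 ^ k ≤ 7 * L ^ 3 * 2 ^ k := by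
    refine mul_le_mul_of_nonneg_right ?_ (by positivity)
    have : L ^ 2 ≤ L ^ 3 := pow_le_pow_right₀ (by linarith) (by norm_num)
    nlinarith [sq_nonneg L]
  unfold dv
  exact ⟨div_sub_le (h6.trans h8), fun i => div_sub_le (h7 i)⟩

open Classical in
theorem mult10 (hL : 2 ≤ L) (ha : ∀ i, |ua i| ≤ L) (hb : ∀ i, |ub i| ≤ L) (hc : ∀ i, |uc i| ≤ L)
    (ht : L⁻¹ ≤ |tri ua ub uc|) (r : ℤ) (s : Fin 2 → ℤ) :
    ((S.filter fun p => xf ub uc p = r ∧ prj ua 0 p = s).card : ℝ) ≤ L ^ 21 := by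
  refine (card_Z3_le _ (7 * L ^ 3 * 1) (by positivity) fun p hp p' hp' => ?_).trans (num1 hL)
  obtain ⟨_, h1, h2⟩ := Finset.mem_filter.1 hp
  obtain ⟨_, h1', h2'⟩ := Finset.mem_filter.1 hp'
  have h3 : |lf ub uc p - lf ub uc p'| ≤ 2 * 1 := (xf_close (h1.trans h1'.symm)).trans (by norm_num)
  have h4 : ∀ i, |((p.2 i : ℝ) - p'.2 i) - ((p.1 : ℝ) - p'.1) * ua i| ≤ 1 := by
    intro i
    have := prj_close (h2.trans h2'.symm) i
    rwa [pow_zero] at this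
  obtain ⟨h6, h7⟩ := recover (p := p) (p' := p') (R := 1) (by linarith) ha hb hc ht zero_le_one h4 h3
  have h8 : 6 * L ^ 2 * 1 ≤ 7 * L ^ 3 * 1 := by
    have : L ^ 2 ≤ L ^ 3 := pow_le_pow_right₀ (by linarith) (by norm_num)
    nlinarith [sq_nonneg L]
  exact ⟨h6.trans h8, h7⟩

/-- two coordinates which depend on one projection -/
theorem pairs_le (hL : 2 ≤ L) (x y : Z3 → ℤ) (w : Fin 2 → ℝ)
    (hx : ∀ p p' : Z3, prj w 0 p = prj w 0 p' → |(x p : ℝ) - x p'| ≤ 4 * L * 1 + 1)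
    (hy : ∀ p p' : Z3, prj w 0 p = prj w 0 p' → |(y p : ℝ) - y p'| ≤ 4 * L * 1 + 1) :
    ((S.image fun p => (x p, y p)).card : ℝ) ≤ ((S.image (prj w 0)).card : ℝ) * L ^ 10 := by
  refine card_image_le_mul S _ (prj w 0) (L ^ 10) fun t => ?_
  refine (card_pair_le _ x y (4 * L * 1 + 1) (by positivity) (fun s hs s' hs' => ?_) (fun s hs s' hs' => ?_)).trans (num4 hL)
  · exact hx s s' ((Finset.mem_filter.1 hs).2.trans (Finset.mem_filter.1 hs').2.symm)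
  · exact hy s s' ((Finset.mem_filter.1 hs).2.trans (Finset.mem_filter.1 hs').2.symm)

theorem prj_zero {w : Fin 2 → ℝ} {p p' : Z3} (h : prj w 0 p = prj w 0 p') (i : Fin 2) :
    |((p.2 i : ℝ) - p'.2 i) - ((p.1 : ℝ) - p'.1) * w i| ≤ 1 := by
  have := prj_close h i
  rwa [pow_zero] at this

theorem xf_right (hb : ∀ i, |ub i| ≤ L) (hc : ∀ i, |uc i| ≤ L) (p p' : Z3) (h : prj uc 0 p = prj uc 0 p') :
    |(xf ub uc p : ℝ) - xf ub uc p'| ≤ 4 * L * 1 + 1 := xf_sub_le (lf_proj hb hc zero_le_one (prj_zero h))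

theorem xf_left (hb : ∀ i, |ub i| ≤ L) (hc : ∀ i, |uc i| ≤ L) (p p' : Z3) (h : prj ub 0 p = prj ub 0 p') :
    |(xf ub uc p : ℝ) - xf ub uc p'| ≤ 4 * L * 1 + 1 := xf_sub_le (lf_proj' hb hc zero_le_one (prj_zero h))

/-! ### counts of the configuration -/

open Classical in
theorem cnt_prj (hC : Cfg kp E d N m P Th v μ) (hSP : S ⊆ P) {θ : ι} (hθ : θ ∈ Th) (hμ : ∀ p ∈ S, μ p θ ≠ 0) {j : ℕ}
    (hj : j ≤ N) : ((S.image (prj (v θ) ((N - j) * m))).card : ℝ) ≤ (2:ℝ) ^ ((2 * kp * j + E * N) * m) := by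
  have h := hC.c3 θ hθ 0 j (Nat.zero_le _) hj (0, 0)
  have hsub : S ⊆ P.filter fun p => μ p θ ≠ 0 ∧ dv ((N - 0) * m) p = (0, 0) := by
    intro p hp
    refine Finset.mem_filter.2 ⟨hSP hp, hμ p hp, ?_⟩
    obtain ⟨⟨b1, b2⟩, b3⟩ := hC.box p (hSP hp)
    rw [Nat.sub_zero]
    unfold dv
    refine Prod.ext (Int.ediv_eq_zero_of_lt b1 b2) (funext fun i => ?_)
    exact Int.ediv_eq_zero_of_lt (b3 i).1 (b3 i).2
  have h2 : ((S.image (prj (v θ) ((N - j) * m))).card : ℝ) ≤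
      (((P.filter fun p => μ p θ ≠ 0 ∧ dv ((N - 0) * m) p = (0, 0)).image (prj (v θ) ((N - j) * m))).card : ℝ) := by
    exact_mod_cast Finset.card_le_card (Finset.image_subset_image hsub)
  refine (h2.trans h).trans (le_of_eq ?_)
  rw [Nat.cast_zero, sub_zero]

open Classical in
theorem cnt_prj_cell (hC : Cfg kp E d N m P Th v μ) (hSP : S ⊆ P) {θ : ι} (hθ : θ ∈ Th) (hμ : ∀ p ∈ S, μ p θ ≠ 0) {j : ℕ}
    (hj : j ≤ N) (c : Z3) : (((S.filter fun p => dv ((N - j) * m) p = c).image (prj (v θ) ((N - N) * m))).card : ℝ) ≤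
      (2:ℝ) ^ ((2 * kp * ((N : ℝ) - j) + E * N) * m) := by
  refine le_trans ?_ (hC.c3 θ hθ j N hj le_rfl c)
  have hsub : (S.filter fun p => dv ((N - j) * m) p = c) ⊆ P.filter fun p => μ p θ ≠ 0 ∧ dv ((N - j) * m) p = c := by
    intro p hp
    obtain ⟨h1, h2⟩ := Finset.mem_filter.1 hp
    exact Finset.mem_filter.2 ⟨hSP h1, hμ p h1, h2⟩
  exact_mod_cast Finset.card_le_card (Finset.image_subset_image hsub)

open Classical in
theorem cnt_cells (hC : Cfg kp E d N m P Th v μ) (hSP : S ⊆ P) {j : ℕ} (hj : j ≤ N) :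
    ((S.image (dv ((N - j) * m))).card : ℝ) ≤ (2:ℝ) ^ ((3 * kp * j + E * N) * m) := by
  refine le_trans ?_ (hC.c1 j hj)
  exact_mod_cast Finset.card_le_card (Finset.image_subset_image hSP)

open Classical in
theorem cnt_cell (hC : Cfg kp E d N m P Th v μ) (hSP : S ⊆ P) {j : ℕ} (hj : j ≤ N) (c : Z3) :
    ((S.filter fun p => dv ((N - j) * m) p = c).card : ℝ) ≤ (2:ℝ) ^ ((3 * kp * ((N : ℝ) - j) + E * N) * m) := by
  refine le_trans ?_ (hC.c2 j hj c)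
  exact_mod_cast Finset.card_le_card (Finset.filter_subset_filter _ hSP)

/-- size of the coordinate -/
theorem xf_size (hL : 2 ≤ L) (hb : ∀ i, |ub i| ≤ L) (hc : ∀ i, |uc i| ≤ L) {p : Z3} {n : ℕ}
    (h1 : 0 ≤ p.1 ∧ p.1 < 2 ^ n) (h2 : ∀ i, 0 ≤ p.2 i ∧ p.2 i < 2 ^ n) : |(xf ub uc p : ℝ)| ≤ L ^ 6 * 2 ^ n := by
  have key : ∀ z : ℤ, 0 ≤ z ∧ z < 2 ^ n → |(z : ℝ) - ((0 : ℤ) : ℝ)| ≤ 2 ^ n := by
    intro z hz
    have a1 : (0 : ℝ) ≤ z := by exact_mod_cast hz.1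
    have a2 : (z : ℝ) ≤ 2 ^ n := by exact_mod_cast hz.2.le
    rw [Int.cast_zero, sub_zero, abs_of_nonneg a1]
    exact a2
  have h0 : lf ub uc (0, 0) = 0 := by
    unfold lf cr
    simp
  have h3 := lf_lip (p := p) (p' := ((0, 0) : Z3)) (L := L) (R := 2 ^ n) (by linarith) hb hc (key _ h1)
    (fun i => key _ (h2 i))
  have h4 := xf_sub_le h3
  have h5 : xf ub uc (0, 0) = 0 := by
    unfold xf
    rw [h0, Int.floor_zero]
  rw [h5, Int.cast_zero, sub_zero] at h4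
  refine h4.trans ?_
  have h6 : (1 : ℝ) ≤ 2 ^ n := one_le_pow₀ (by norm_num)
  calc 8 * L ^ 2 * 2 ^ n + 1 ≤ (8 * L ^ 2 + 1) * 2 ^ n := by linarith
    _ ≤ L ^ 6 * 2 ^ n := mul_le_mul_of_nonneg_right (num5 hL) (by positivity)

end

end Vale.Agent.P076.H645
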