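import Mathlib.Analysis.SpecialFunctions.Pow.Real
import Mathlib.Analysis.MeanInequalities
import Mathlib.Data.Finset.Card
import Mathlib.Data.Finset.Prod

/-!
# P076 / BG / POP : popular values of one coordinate (helper645)

Proof of `StPOP` of `H732/FinDefs`.
-/

set_option autoImplicit false

namespace Vale.Agent.P076.H645

open Finset

section
variable {α β γ : Type}

/-- counting along the fibres of a map -/
theorem card_le_of_fib [DecidableEq β] (S : Finset α) (f : α → β) (B : ℝ)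
    (h : ∀ b ∈ S.image f, ((S.filter fun s => f s = b).card : ℝ) ≤ B) :
    (S.card : ℝ) ≤ (S.image f).card * B := by
  have h1 : (S.card : ℝ) = ∑ b ∈ S.image f, ((S.filter fun s => f s = b).card : ℝ) := by
    rw [Finset.card_eq_sum_card_image f S]
    push_cast
    rfl
  rw [h1]
  calc ∑ b ∈ S.image f, ((S.filter fun s => f s = b).card : ℝ) ≤ ∑ _b ∈ S.image f, B :=
        Finset.sum_le_sum h
    _ = (S.image f).card * B := by rw [Finset.sum_const, nsmul_eq_mul]

theorem card_le_of_fib' [DecidableEq β] (S : Finset α) (f : α → β) (K B : ℝ) (hB : 0 ≤ B)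
    (hK : ((S.image f).card : ℝ) ≤ K)
    (h : ∀ b ∈ S.image f, ((S.filter fun s => f s = b).card : ℝ) ≤ B) :
    (S.card : ℝ) ≤ K * B :=
  (card_le_of_fib S f B h).trans (mul_le_mul_of_nonneg_right hK hB)

open Classical in
theorem sum_fib_le [DecidableEq β] (T : Finset α) (P : Finset β) (x : α → β) :
    ∑ a ∈ P, ((T.filter fun s => x s = a).card : ℝ) ≤ (T.card : ℝ) := by
  have h : ∑ a ∈ P, (T.filter fun s => x s = a).card ≤ T.card := by
    rw [Finset.sum_card_fiberwise_eq_card_filter]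
    exact Finset.card_filter_le _ _
  exact_mod_cast h

/-- number of pairs `(x, y)` = sum over `x` of the number of `y` on the fibre -/
theorem sum_fib_image (S : Finset α) (x : α → ℤ) (y : α → ℤ) :
    ∑ a ∈ S.image x, (((S.filter fun s => x s = a).image y).card : ℝ) = ((S.image fun s => (x s, y s)).card : ℝ) := by
  have key : ((S.image fun s => (x s, y s)).card : ℝ) =
      ∑ a ∈ (S.image fun s => (x s, y s)).image Prod.fst,
        (((S.image fun s => (x s, y s)).filter fun p => p.1 = a).card : ℝ) := by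
    rw [Finset.card_eq_sum_card_image Prod.fst (S.image fun s => (x s, y s))]
    push_cast
    rfl
  rw [key]
  have him : (S.image fun s => (x s, y s)).image Prod.fst = S.image x := by
    rw [Finset.image_image]; rfl
  rw [him]
  refine Finset.sum_congr rfl fun a _ => ?_
  have : ((S.image fun s => (x s, y s)).filter fun p => p.1 = a) =
      ((S.filter fun s => x s = a).image y).image fun b => (a, b) := by
    ext ⟨u, v⟩
    simp only [mem_filter, mem_image, Prod.mk.injEq]
    constructor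
    · rintro ⟨⟨s, hs, h1, h2⟩, h3⟩
      exact ⟨v, ⟨s, ⟨hs, h1.trans h3⟩, h2⟩, h3.symm, rfl⟩
    · rintro ⟨b, ⟨s, ⟨hs, h1⟩, h2⟩, h3, h4⟩
      exact ⟨⟨s, hs, h1.trans h3, h2.trans h4⟩, h3.symm⟩
  rw [this, Finset.card_image_of_injective _ (Prod.mk_right_injective a)]

open Classical in
/-- the fibre over `x = a` is small if it has few `y` and few `z` -/
theorem fib_le (S : Finset α) (x y z : α → ℤ) (κ : ℝ) (hκ : 0 ≤ κ)
    (h1 : ∀ a b c : ℤ, ((S.filter fun s => x s = a ∧ y s = b ∧ z s = c).card : ℝ) ≤ κ) (a : ℤ) :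
    ((S.filter fun s => x s = a).card : ℝ) ≤
      κ * ((((S.filter fun s => x s = a).image y).card : ℝ) * (((S.filter fun s => x s = a).image z).card : ℝ)) := by
  set F := S.filter fun s => x s = a with hF
  have hA : (F.card : ℝ) ≤ ((F.image fun s => (y s, z s)).card : ℝ) * κ := by
    refine card_le_of_fib' F (fun s => (y s, z s)) _ κ hκ le_rfl fun b _ => ?_
    refine le_trans ?_ (h1 a b.1 b.2)
    exact_mod_cast Finset.card_le_card (by
      intro s hs
      simp only [hF, mem_filter] at hs ⊢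
      refine ⟨hs.1.1, hs.1.2, ?_, ?_⟩
      · rw [← hs.2]
      · rw [← hs.2])
  have hB : ((F.image fun s => (y s, z s)).card : ℝ) ≤ ((F.image y).card : ℝ) * ((F.image z).card : ℝ) := by
    have : (F.image fun s => (y s, z s)) ⊆ (F.image y) ×ˢ (F.image z) := by
      intro p hp
      obtain ⟨s, hs, rfl⟩ := Finset.mem_image.1 hp
      exact Finset.mem_product.2 ⟨Finset.mem_image_of_mem y hs, Finset.mem_image_of_mem z hs⟩
    have h := Finset.card_le_card this
    rw [Finset.card_product] at h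
    exact_mod_cast h
  calc (F.card : ℝ) ≤ ((F.image fun s => (y s, z s)).card : ℝ) * κ := hA
    _ ≤ (((F.image y).card : ℝ) * ((F.image z).card : ℝ)) * κ := mul_le_mul_of_nonneg_right hB hκ
    _ = _ := by ring

open Classical in
/-- the points with an unpopular first coordinate are few -/
theorem unpop (S : Finset α) (x y z : α → ℤ) (κ lam M : ℝ) (hκ : 0 ≤ κ) (hlam : 0 < lam) (hM : 0 ≤ M)
    (h1 : ∀ a b c : ℤ, ((S.filter fun s => x s = a ∧ y s = b ∧ z s = c).card : ℝ) ≤ κ)
    (h2 : ((S.image fun s => (x s, y s)).card : ℝ) ≤ M) (h3 : ((S.image fun s => (x s, z s)).card : ℝ) ≤ M) :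
    ((S.filter fun s => ((S.filter fun s' => x s' = x s).card : ℝ) < lam).card : ℝ) ≤ Real.sqrt (lam * κ) * M := by
  set n : ℤ → ℝ := fun a => ((S.filter fun s => x s = a).card : ℝ) with hn
  set my : ℤ → ℝ := fun a => (((S.filter fun s => x s = a).image y).card : ℝ) with hmy
  set mz : ℤ → ℝ := fun a => (((S.filter fun s => x s = a).image z).card : ℝ) with hmz
  set U := (S.image x).filter fun a => n a < lam with hU
  set T := S.filter fun s => ((S.filter fun s' => x s' = x s).card : ℝ) < lam with hT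
  have hn0 : ∀ a, 0 ≤ n a := fun a => Nat.cast_nonneg _
  have hmy0 : ∀ a, 0 ≤ my a := fun a => Nat.cast_nonneg _
  have hmz0 : ∀ a, 0 ≤ mz a := fun a => Nat.cast_nonneg _
  have hTsum : (T.card : ℝ) ≤ ∑ a ∈ U, n a := by
    have e1 : (T.card : ℝ) = ∑ a ∈ T.image x, ((T.filter fun s => x s = a).card : ℝ) := by
      rw [Finset.card_eq_sum_card_image x T]; push_cast; rfl
    rw [e1]
    have hsub : T.image x ⊆ U := by
      intro a ha
      obtain ⟨s, hs, rfl⟩ := Finset.mem_image.1 ha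
      rw [hT, mem_filter] at hs
      exact mem_filter.2 ⟨Finset.mem_image_of_mem x hs.1, hs.2⟩
    calc ∑ a ∈ T.image x, ((T.filter fun s => x s = a).card : ℝ) ≤ ∑ a ∈ T.image x, n a := by
          refine Finset.sum_le_sum fun a _ => ?_
          show ((T.filter fun s => x s = a).card : ℝ) ≤ ((S.filter fun s => x s = a).card : ℝ)
          exact_mod_cast Finset.card_le_card (Finset.filter_subset_filter _ (Finset.filter_subset _ _))
      _ ≤ ∑ a ∈ U, n a := Finset.sum_le_sum_of_subset_of_nonneg hsub fun a _ _ => hn0 a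
  have hterm : ∀ a ∈ U, n a ≤ Real.sqrt (lam * κ) * (Real.sqrt (my a) * Real.sqrt (mz a)) := by
    intro a ha
    have hlt : n a < lam := (mem_filter.1 ha).2
    have hf : n a ≤ κ * (my a * mz a) := fib_le S x y z κ hκ h1 a
    have hsq : n a * n a ≤ (lam * κ) * (my a * mz a) := by
      calc n a * n a ≤ lam * (κ * (my a * mz a)) :=
            mul_le_mul hlt.le hf (hn0 a) hlam.le
        _ = _ := by ring
    have : n a = Real.sqrt (n a * n a) := (Real.sqrt_mul_self (hn0 a)).symm
    rw [this]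
    calc Real.sqrt (n a * n a) ≤ Real.sqrt ((lam * κ) * (my a * mz a)) := Real.sqrt_le_sqrt hsq
      _ = Real.sqrt (lam * κ) * Real.sqrt (my a * mz a) := Real.sqrt_mul (mul_nonneg hlam.le hκ) _
      _ = _ := by rw [Real.sqrt_mul (hmy0 a)]
  have hy : ∑ a ∈ U, my a ≤ M := by
    refine le_trans (Finset.sum_le_sum_of_subset_of_nonneg (Finset.filter_subset _ _) fun a _ _ => hmy0 a) ?_
    rw [show ∑ a ∈ S.image x, my a = ((S.image fun s => (x s, y s)).card : ℝ) from sum_fib_image S x y]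
    exact h2
  have hz : ∑ a ∈ U, mz a ≤ M := by
    refine le_trans (Finset.sum_le_sum_of_subset_of_nonneg (Finset.filter_subset _ _) fun a _ _ => hmz0 a) ?_
    rw [show ∑ a ∈ S.image x, mz a = ((S.image fun s => (x s, z s)).card : ℝ) from sum_fib_image S x z]
    exact h3
  calc (T.card : ℝ) ≤ ∑ a ∈ U, n a := hTsum
    _ ≤ ∑ a ∈ U, Real.sqrt (lam * κ) * (Real.sqrt (my a) * Real.sqrt (mz a)) := Finset.sum_le_sum hterm
    _ = Real.sqrt (lam * κ) * ∑ a ∈ U, Real.sqrt (my a) * Real.sqrt (mz a) := by rw [Finset.mul_sum]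
    _ ≤ Real.sqrt (lam * κ) * (Real.sqrt (∑ a ∈ U, my a) * Real.sqrt (∑ a ∈ U, mz a)) :=
        mul_le_mul_of_nonneg_left (Real.sum_sqrt_mul_sqrt_le U hmy0 hmz0) (Real.sqrt_nonneg _)
    _ ≤ Real.sqrt (lam * κ) * (Real.sqrt M * Real.sqrt M) := by
        refine mul_le_mul_of_nonneg_left ?_ (Real.sqrt_nonneg _)
        exact mul_le_mul (Real.sqrt_le_sqrt hy) (Real.sqrt_le_sqrt hz) (Real.sqrt_nonneg _) (Real.sqrt_nonneg _)
    _ = Real.sqrt (lam * κ) * M := by rw [Real.mul_self_sqrt hM]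

open Classical in
/-- popular values in a cell -/
theorem pop_cell (S : Finset α) (x : α → ℤ) (f : α → β) (xc : ℤ → ℤ) (q : α → γ) (κ lam A₂ A₃ : ℝ) (hκ : 0 ≤ κ)
    (hA₂ : 0 ≤ A₂)
    (h5 : ∀ c, ((S.filter fun s => f s = c).card : ℝ) ≤ A₂) (h6 : ((S.image q).card : ℝ) ≤ A₃)
    (h9 : ∀ a r, (((S.filter fun s => xc (x s) = a ∧ q s = r).image f).card : ℝ) ≤ κ) (c : ℤ) :
    (((S.image x).filter fun a => lam ≤ ((S.filter fun s => x s = a).card : ℝ) ∧ xc a = c).card : ℝ) * lam ≤
      κ * A₃ * A₂ := by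
  set Pc := (S.image x).filter fun a => lam ≤ ((S.filter fun s => x s = a).card : ℝ) ∧ xc a = c with hPc
  set T := S.filter fun s => xc (x s) = c with hT
  have hA₃ : 0 ≤ A₃ := le_trans (Nat.cast_nonneg _) h6
  have hlow : (Pc.card : ℝ) * lam ≤ (T.card : ℝ) := by
    calc (Pc.card : ℝ) * lam = ∑ _a ∈ Pc, lam := by rw [Finset.sum_const, nsmul_eq_mul]
      _ ≤ ∑ a ∈ Pc, ((S.filter fun s => x s = a).card : ℝ) :=
          Finset.sum_le_sum fun a ha => (mem_filter.1 ha).2.1
      _ = ∑ a ∈ Pc, ((T.filter fun s => x s = a).card : ℝ) := by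
          refine Finset.sum_congr rfl fun a ha => ?_
          congr 2
          ext s
          simp only [hT, mem_filter]
          constructor
          · rintro ⟨h1, h2⟩
            exact ⟨⟨h1, by rw [h2]; exact (mem_filter.1 ha).2.2⟩, h2⟩
          · rintro ⟨⟨h1, _⟩, h2⟩
            exact ⟨h1, h2⟩
      _ ≤ (T.card : ℝ) := sum_fib_le T Pc x
  have hup : (T.card : ℝ) ≤ A₃ * (κ * A₂) := by
    refine card_le_of_fib' T q A₃ (κ * A₂) (mul_nonneg hκ hA₂) (le_trans ?_ h6) fun r _ => ?_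
    · exact_mod_cast Finset.card_le_card (Finset.image_subset_image (Finset.filter_subset _ S))
    · refine card_le_of_fib' (T.filter fun s => q s = r) f κ A₂ hA₂ (le_trans ?_ (h9 c r)) fun c' _ => ?_
      · exact_mod_cast Finset.card_le_card (Finset.image_subset_image (by
          intro s hs
          simp only [hT, mem_filter] at hs ⊢
          exact ⟨hs.1.1, hs.1.2, hs.2⟩))
      · refine le_trans ?_ (h5 c')
        exact_mod_cast Finset.card_le_card (by
          intro s hs
          simp only [hT, mem_filter] at hs ⊢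
          exact ⟨hs.1.1.1, hs.2⟩)
  calc (Pc.card : ℝ) * lam ≤ (T.card : ℝ) := hlow
    _ ≤ A₃ * (κ * A₂) := hup
    _ = κ * A₃ * A₂ := by ring

open Classical in
/-- number of cells with popular values -/
theorem pop_cover (S : Finset α) (x : α → ℤ) (f : α → β) (xc : ℤ → ℤ) (q : α → γ) (κ lam A₁ A₄ : ℝ) (hκ : 0 ≤ κ)
    (hA₄ : 0 ≤ A₄)
    (h4 : ((S.image f).card : ℝ) ≤ A₁)
    (h7 : ∀ c, (((S.filter fun s => f s = c).image q).card : ℝ) ≤ A₄)
    (h8 : ∀ c, (((S.filter fun s => f s = c).image fun s => xc (x s)).card : ℝ) ≤ κ)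
    (h10 : ∀ a r, ((S.filter fun s => x s = a ∧ q s = r).card : ℝ) ≤ κ) :
    ((((S.image x).filter fun a => lam ≤ ((S.filter fun s => x s = a).card : ℝ)).image xc).card : ℝ) * lam ≤
      κ ^ 2 * A₄ * A₁ := by
  set Pp := (S.image x).filter fun a => lam ≤ ((S.filter fun s => x s = a).card : ℝ) with hPp
  set V := Pp.image xc with hV
  -- a popular representative of each cell
  have hex : ∀ v : ℤ, ∃ a : ℤ, v ∈ V → a ∈ Pp ∧ xc a = v := by
    intro v
    by_cases hv : v ∈ V
    · obtain ⟨a, ha, hav⟩ := Finset.mem_image.1 hv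
      exact ⟨a, fun _ => ⟨ha, hav⟩⟩
    · exact ⟨0, fun h => absurd h hv⟩
  choose g hg using hex
  -- the set of points with a representative value
  set T := S.filter fun s => xc (x s) ∈ V ∧ x s = g (xc (x s)) with hT
  have hlow : (V.card : ℝ) * lam ≤ (T.card : ℝ) := by
    calc (V.card : ℝ) * lam = ∑ _v ∈ V, lam := by rw [Finset.sum_const, nsmul_eq_mul]
      _ ≤ ∑ v ∈ V, ((S.filter fun s => x s = g v).card : ℝ) :=
          Finset.sum_le_sum fun v hv => (mem_filter.1 (hg v hv).1).2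
      _ = ∑ v ∈ V, ((T.filter fun s => xc (x s) = v).card : ℝ) := by
          refine Finset.sum_congr rfl fun v hv => ?_
          congr 2
          ext s
          simp only [hT, mem_filter]
          constructor
          · rintro ⟨h1, h2⟩
            have h3 : xc (x s) = v := by rw [h2]; exact (hg v hv).2
            exact ⟨⟨h1, by rw [h3]; exact hv, by rw [h3]; exact h2⟩, h3⟩
          · rintro ⟨⟨h1, _, h2⟩, h3⟩
            rw [h3] at h2
            exact ⟨h1, h2⟩
      _ ≤ (T.card : ℝ) := sum_fib_le T V (fun s => xc (x s))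
  have hup : (T.card : ℝ) ≤ A₁ * (κ * (A₄ * κ)) := by
    refine card_le_of_fib' T f A₁ (κ * (A₄ * κ)) (mul_nonneg hκ (mul_nonneg hA₄ hκ)) (le_trans ?_ h4) fun c _ => ?_
    · exact_mod_cast Finset.card_le_card (Finset.image_subset_image (Finset.filter_subset _ S))
    · refine card_le_of_fib' (T.filter fun s => f s = c) (fun s => xc (x s)) κ (A₄ * κ) (mul_nonneg hA₄ hκ)
        (le_trans ?_ (h8 c)) fun v _ => ?_
      · have hsub : (T.filter fun s => f s = c) ⊆ S.filter fun s => f s = c :=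
          Finset.filter_subset_filter _ (Finset.filter_subset _ S)
        exact_mod_cast Finset.card_le_card (Finset.image_subset_image (f := fun s => xc (x s)) hsub)
      · refine card_le_of_fib' _ q A₄ κ hκ (le_trans ?_ (h7 c)) fun r _ => ?_
        · exact_mod_cast Finset.card_le_card (Finset.image_subset_image (by
            intro s hs
            simp only [hT, mem_filter] at hs ⊢
            exact ⟨hs.1.1.1, hs.1.2⟩))
        · refine le_trans ?_ (h10 (g v) r)
          exact_mod_cast Finset.card_le_card (by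
            intro s hs
            simp only [hT, mem_filter] at hs ⊢
            refine ⟨hs.1.1.1.1, ?_, hs.2⟩
            rw [hs.1.1.1.2.2, hs.1.2])
  calc (V.card : ℝ) * lam ≤ (T.card : ℝ) := hlow
    _ ≤ A₁ * (κ * (A₄ * κ)) := hup
    _ = κ ^ 2 * A₄ * A₁ := by ring

open Classical in
/-- **[POP]** -/
theorem pop [Nonempty β] (S : Finset α) (N : ℕ) (x y z : α → ℤ) (f : ℕ → α → β) (xc : ℕ → ℤ → ℤ) (q : ℕ → α → γ)
    (κ lam M : ℝ) (A₁ A₂ A₃ A₄ : ℕ → ℝ) (hκ : 1 ≤ κ) (hlam : 0 < lam) (hM : 0 ≤ M)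
    (h1 : ∀ a b c : ℤ, ((S.filter fun s => x s = a ∧ y s = b ∧ z s = c).card : ℝ) ≤ κ)
    (h2 : ((S.image fun s => (x s, y s)).card : ℝ) ≤ M) (h3 : ((S.image fun s => (x s, z s)).card : ℝ) ≤ M)
    (h4 : ∀ j ≤ N, ((S.image (f j)).card : ℝ) ≤ A₁ j)
    (h5 : ∀ j ≤ N, ∀ c, ((S.filter fun s => f j s = c).card : ℝ) ≤ A₂ j)
    (h6 : ∀ j ≤ N, ((S.image (q j)).card : ℝ) ≤ A₃ j)
    (h7 : ∀ j ≤ N, ∀ c, (((S.filter fun s => f j s = c).image (q N)).card : ℝ) ≤ A₄ j)
    (h8 : ∀ j ≤ N, ∀ c, (((S.filter fun s => f j s = c).image fun s => xc j (x s)).card : ℝ) ≤ κ)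
    (h9 : ∀ j ≤ N, ∀ a r, (((S.filter fun s => xc j (x s) = a ∧ q j s = r).image (f j)).card : ℝ) ≤ κ)
    (h10 : ∀ a r, ((S.filter fun s => x s = a ∧ q N s = r).card : ℝ) ≤ κ) :
    ((S.filter fun s => ((S.filter fun s' => x s' = x s).card : ℝ) < lam).card : ℝ) ≤ Real.sqrt (lam * κ) * M ∧
    (∀ j ≤ N, ∀ c, (((S.image x).filter fun a => lam ≤ ((S.filter fun s => x s = a).card : ℝ) ∧ xc j a = c).card : ℝ) * lam ≤
      κ * A₃ j * A₂ j) ∧
    (∀ j ≤ N, ((((S.image x).filter fun a => lam ≤ ((S.filter fun s => x s = a).card : ℝ)).image (xc j)).card : ℝ) * lam ≤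
      κ ^ 2 * A₄ j * A₁ j) := by
  have hκ0 : 0 ≤ κ := zero_le_one.trans hκ
  obtain ⟨b₀⟩ := ‹Nonempty β›
  refine ⟨unpop S x y z κ lam M hκ0 hlam hM h1 h2 h3, fun j hj c => ?_, fun j hj => ?_⟩
  · exact pop_cell S x (f j) (xc j) (q j) κ lam (A₂ j) (A₃ j) hκ0 ((Nat.cast_nonneg _).trans (h5 j hj b₀)) (h5 j hj)
      (h6 j hj) (h9 j hj) c
  · exact pop_cover S x (f j) (xc j) (q N) κ lam (A₁ j) (A₄ j) hκ0 ((Nat.cast_nonneg _).trans (h7 j hj b₀)) (h4 j hj)
      (h7 j hj) (h8 j hj) h10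

end

end Vale.Agent.P076.H645
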